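import Vale.Agent.P092GK.Pair
import Vale.Agent.P092GK.PanD
import Vale.Agent.P092LG.Geo
import Mathlib.LinearAlgebra.Eigenspace.Minpoly

/-!
P092, group package (helper67): normal subgroups, Howe-Moore, Moore and `Geo` from the flag and
panel packages.
-/

set_option linter.all false

open Filter Topology

namespace Vale.Agent.P092GH

open Vale.Agent.P092GK Vale.Agent.P092GK.FlD
open Vale.Agent.P092.H933 (Len URep)
open Vale.Agent.P092.H15 (Ctr HMG)

section len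

variable {G : Type} [Group G] [TopologicalSpace G] [IsTopologicalGroup G] {f : G → ℝ}

theorem len_lim (hf : Len f) {ι : Type} {l : Filter ι} [l.NeBot] {γ : ι → G} {g : G}
    (hγ : Tendsto γ l (𝓝 g)) (h0 : Tendsto (fun n => f (γ n)) l (𝓝 0)) : f g = 0 := by
  have h1 : Tendsto (fun n => g * (γ n)⁻¹) l (𝓝 1) := by
    simpa using (tendsto_const_nhds (x := g)).mul hγ.inv
  have h2 := (hf.cont.comp h1).add h0
  rw [add_zero] at h2
  refine le_antisymm (ge_of_tendsto' h2 fun n => ?_) (hf.nonneg g)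
  simpa using hf.mul (g * (γ n)⁻¹) (γ n)

theorem closed_ker (hf : Len f) : IsClosed (hf.ker : Set G) :=
  isClosed_iff_ultrafilter.2 fun x U hU hk => len_lim hf (γ := id) (l := (U : Filter G)) hU
    (tendsto_const_nhds.congr' (mem_of_superset hk fun g (hg : f g = 0) => hg.symm))

theorem len_conj (hf : Len f) (a : G) : Len fun g => f (a * g * a⁻¹) :=
  Vale.Agent.P092.H15.Len.comap_conj hf a

end len

variable {k : Type} [NontriviallyNormedField k] {G : Type} [Group G] {r : ℕ} {F : FlD k G r}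
  {s : Fin r → G} {N : ℕ} {τ : ℕ → Fin r} {w : ℕ → G}

/-- the subgroup generated by the two unipotent radicals -/
def Gp (F : FlD k G r) : Subgroup G := Subgroup.closure ((F.Up : Set G) ∪ F.Um)

theorem up_le_Gp : F.Up ≤ Gp F := fun _ hu => Subgroup.subset_closure (Or.inl hu)

theorem um_le_Gp : F.Um ≤ Gp F := fun _ hu => Subgroup.subset_closure (Or.inr hu)

theorem Gp_le {S : Subgroup G} (h1 : F.Up ≤ S) (h2 : F.Um ≤ S) : Gp F ≤ S :=
  (Subgroup.closure_le S).2 (Set.union_subset h1 h2)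

theorem L_anti {θ θ' : Finset (Fin r)} (h : θ ⊆ θ') : F.L θ' ≤ F.L θ := fun _ hg =>
  mem_L.2 fun j hj => mem_L.1 hg j (h hj)

theorem s_L₁ (hp : Pan F s N τ w) (i : Fin r) : s i ∈ F.L₁ i := by
  obtain ⟨u, -, v, -, v', -, h1, h2, h3, -, e⟩ := hp.gen i
  rw [e]
  exact mul_mem (mul_mem h2 h1) h3

theorem s_L (hp : Pan F s N τ w) {i j : Fin r} (hij : i ≠ j) : s i ∈ F.L {j} :=
  L_anti (by simpa using hij.symm) (s_L₁ hp i)

theorem s_Gp (hp : Pan F s N τ w) (i : Fin r) : s i ∈ Gp F := by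
  obtain ⟨u, h1, v, h2, v', h3, -, -, -, -, e⟩ := hp.gen i
  rw [e]
  exact mul_mem (mul_mem (um_le_Gp h2) (up_le_Gp h1)) (um_le_Gp h3)

/-- a subgroup normalised by the minimal parabolic subgroup and the reflections is normal -/
theorem normal_of (hp : Pan F s N τ w) {S : Subgroup G}
    (h1 : F.P Finset.univ ≤ Subgroup.normalizer S) (h2 : ∀ i, s i ∈ Subgroup.normalizer (S : Set G)) :
    S.Normal :=
  Subgroup.normalizer_eq_top_iff.1 (top_le_iff.1 (hp.bn ⊤ _ le_top h1 fun i _ => h2 i))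

variable [TopologicalSpace G]

theorem Gp_normal (h : Fl F) (hp : Pan F s N τ w) : (Gp F).Normal := by
  refine normal_of hp (fun g hg => ?_) fun i => Subgroup.le_normalizer (s_Gp hp i)
  obtain ⟨z, hz, u, hu, rfl⟩ := h.P_univ.1 hg
  refine mul_mem ((Subgroup.le_normalizer_closure_iff (H := F.Z)).2 (fun z hz g hg => ?_) hz)
    (Subgroup.le_normalizer (up_le_Gp hu))
  exact hg.elim (fun hg => up_le_Gp (h.zup z hz g hg)) fun hg => um_le_Gp (h.zum z hz g hg)

variable [IsTopologicalGroup G] [T2Space G]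

theorem cb_pow (h : Fl F) (j : Fin r) (n : ℕ) :
    F.cb Finset.univ ^ n = F.cb {j} ^ n * F.cb (Finset.univ.erase j) ^ n := by
  rw [h.cb_union (Finset.subset_univ {j}), Finset.sdiff_singleton_eq_erase]
  exact Commute.mul_pow (h.a_comm _ (h.cb_mem _)) n

theorem up_L₁ (h : Fl F) {j : Fin r} {u : G} (hu : u ∈ F.Up) (hl : u ∈ F.L₁ j) : u ∈ F.U {j} := by
  refine Tendsto.congr (fun n => ?_) (h.U_univ.2 hu)
  have h1 : F.cb (Finset.univ.erase j) ^ n * u = u * F.cb (Finset.univ.erase j) ^ n :=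
    (Commute.pow_left (h.cb_comm hl) n).eq
  have h2 := h.cb_pow_comm {j} n _ (F.Z.pow_mem (h.cb_mem (Finset.univ.erase j)) n)
  rw [cb_pow h j, h2, mul_inv_rev, mul_assoc, mul_assoc, ← mul_assoc u, ← h1]
  group

theorem um_L₁ (h : Fl F) {j : Fin r} {u : G} (hu : u ∈ F.Um) (hl : u ∈ F.L₁ j) : u ∈ F.U' {j} := by
  refine Tendsto.congr (fun n => ?_) (h.U'_univ.2 hu)
  have h1 : F.cb (Finset.univ.erase j) ^ n * u = u * F.cb (Finset.univ.erase j) ^ n :=
    (Commute.pow_left (h.cb_comm hl) n).eq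
  rw [cb_pow h j, mul_assoc (F.cb {j} ^ n), h1]
  group

theorem exists_U (h : Fl F) (hp : Pan F s N τ w) (j : Fin r) : ∃ u ∈ F.U {j}, u ≠ 1 := by
  obtain ⟨u, h1, -, -, -, -, h2, -, -, h3, -⟩ := hp.gen j
  exact ⟨u, up_L₁ h h1 h2, h3⟩

/-- regular dominant elements contract `U⁺` -/
theorem up_reg (h : Fl F) {z u : G} (hz : z ∈ F.Z) (hl : ∀ i, 0 < F.ℓ z i) (hu : u ∈ F.Up) :
    Tendsto (fun n : ℕ => (z ^ n)⁻¹ * u * z ^ n) atTop (𝓝 1) := fun O hO => by
  obtain ⟨T, -, hT⟩ := h.up_contr (isCompact_singleton (x := u)) hO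
  refine mem_map.2 ?_
  filter_upwards [eventually_all.2 fun i => (h.tendsto_pow hz (hl i)).eventually_ge_atTop T]
    with n hn using hT _ (F.Z.pow_mem hz n) hn u rfl hu

/-- the rank one trick -/
theorem s_of_len (h : Fl F) (hp : Pan F s N τ w) {f : G → ℝ} (hf : Len f) {j : Fin r}
    (hU : ∀ u ∈ F.U {j}, f u = 0) : f (s j) = 0 := by
  obtain ⟨u, h1, v, h2, v', h3, l1, l2, l3, -, e⟩ := hp.gen j
  have hs := s_L₁ hp j
  have cl : ∀ x ∈ F.L₁ j, (s j)⁻¹ * x * s j ∈ F.L₁ j := fun x hx =>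
    mul_mem (mul_mem (inv_mem hs) hx) hs
  have k1 : ∀ x ∈ F.Um, x ∈ F.L₁ j → (s j)⁻¹ * x * s j ∈ F.U {j} := fun x hx hl =>
    up_L₁ h ((hp.sU j _ (cl x hl)).2 (by simpa [mul_assoc] using hx)) (cl x hl)
  have k2 : (s j)⁻¹ * u * s j ∈ F.U' {j} := um_L₁ h (by
    simpa [mul_assoc] using h.zum _ (inv_mem (hp.ss j)) _ ((hp.sU j u l1).1 h1)) (cl u l1)
  set b := F.cb {j}
  have hb : b ∈ F.Z := h.cb_mem _
  have k3 : Tendsto (fun n : ℕ => f (b ^ n * s j * (b ^ n)⁻¹)) atTop (𝓝 0) := by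
    refine squeeze_zero (fun n => hf.nonneg _) (fun n => ?_) (hf.cont.comp k2)
    have a1 := hU _ (h.U_conj (h.z_mem_L (pow_mem hb n) {j}) (k1 v h2 l2))
    have a2 := hU _ (h.U_conj (h.z_mem_L (pow_mem hb n) {j}) (k1 v' h3 l3))
    have a3 : b ^ n * s j * (b ^ n)⁻¹ = b ^ n * ((s j)⁻¹ * v * s j) * (b ^ n)⁻¹ *
        (b ^ n * ((s j)⁻¹ * u * s j) * (b ^ n)⁻¹) * (b ^ n * ((s j)⁻¹ * v' * s j) * (b ^ n)⁻¹) := by
      calc _ = b ^ n * ((s j)⁻¹ * (v * u * v') * s j) * (b ^ n)⁻¹ := by rw [← e]; group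
        _ = _ := by group
    rw [a3]
    refine (hf.mul _ _).trans ?_
    rw [a2, add_zero]
    refine (hf.mul _ _).trans ?_
    rw [a1, zero_add]
    rfl
  set c := b * (s j * b⁻¹ * (s j)⁻¹)
  have k4 : ∀ n : ℕ, b ^ n * s j * (b ^ n)⁻¹ = c ^ n * s j := fun n => by
    rw [Commute.mul_pow (a := b) (h.a_comm _ ((hp.sZ j _).1 (inv_mem hb))), conj_pow]
    group
  simp only [k4] at k3
  have k5 : c ∈ hf.ker := by
    have := ((tendsto_add_atTop_iff_nat 1).2 k3).add k3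
    rw [add_zero] at this
    refine le_antisymm (ge_of_tendsto' this fun n => ?_) (hf.nonneg _)
    have := hf.mul (c ^ (n + 1) * s j) (c ^ n * s j)⁻¹
    rwa [hf.inv, show c ^ (n + 1) * s j * (c ^ n * s j)⁻¹ = c by group] at this
  refine le_antisymm (ge_of_tendsto' k3 fun n => ?_) (hf.nonneg _)
  have := hf.mul (c ^ n)⁻¹ (c ^ n * s j)
  rwa [inv_mul_cancel_left, show f (c ^ n)⁻¹ = 0 from inv_mem (pow_mem k5 n), zero_add] at this

variable [ProperSpace k]

/-- an element whose conjugates all fix the highest weight line acts by a scalar -/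
theorem V_scalar (h : Fl F) {m : Fin r} {x : G} (hx : ∀ g, g⁻¹ * x * g ∈ F.P {m}) (y : F.E m) :
    F.V m x y = F.Δ m x • y := by
  have h1 : ∀ g, F.V m x (F.V m g (F.v m)) = F.Δ m (g⁻¹ * x * g) • F.V m g (F.v m) := fun g => by
    rw [← map_smul, ← h.P_iff.1 (hx g) m (Finset.mem_singleton_self m), ← V_mul, ← V_mul]
    congr 2
    group
  have hT := Module.End.finite_hasEigenvalue (R := k) (F.V m x : F.E m →ₗ[k] F.E m)
  have hc : Continuous fun g => F.Δ m (g⁻¹ * x * g) := (h.contΔ m).comp (by fun_prop)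
  have hO := (((hT.diff (t := {F.Δ m x})).isClosed.isOpen_compl.preimage hc).mem_nhds (x := 1)
    fun hh => hh.2 (by simp))
  refine LinearMap.congr_fun (LinearMap.ext_on (f := (F.V m x : F.E m →ₗ[k] F.E m))
    (g := F.Δ m x • LinearMap.id) (h.span_nhds m hO) ?_) y
  rintro _ ⟨g, hg, rfl⟩
  have h2 : F.Δ m (g⁻¹ * x * g) = F.Δ m x := by
    by_contra hne
    exact hg ⟨Module.End.hasEigenvalue_of_hasEigenvector
      ⟨Module.End.mem_eigenspace_iff.2 (h1 g), h.Vv_ne m g⟩, hne⟩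
  exact (h1 g).trans (by rw [h2]; rfl)

/-- **Normal subgroups**: a closed normal subgroup which meets `U {j}` contains `G⁺`. -/
theorem normal_le (h : Fl F) (hp : Pan F s N τ w) {S : Subgroup G} [hS : S.Normal]
    (hc : IsClosed (S : Set G)) {j : Fin r} {u : G} (hu : u ∈ F.U {j}) (h1 : u ≠ 1) (huS : u ∈ S) :
    Gp F ≤ S := by
  have k1 : ∀ m, s m ∈ S ⊔ F.P Finset.univ := fun m => by
    by_contra hm
    have a1 : S ≤ F.P {m} := le_sup_left.trans (hp.bn _ _ le_sup_right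
      (P_anti (Finset.subset_univ _)) fun i hi => h.L_le_P _ (s_L hp fun e => hm (e ▸ hi)))
    refine h1 (h.U_inf_Pm hu (h.Pm_iff.2 fun i hi => ?_))
    obtain rfl := Finset.mem_singleton.1 hi
    refine h.fix_of_bdd' (Eventually.of_forall (h.dom_pow (h.b_dom i)))
      (h.tendsto_pow (h.bZ i) (by rw [h.bℓ, Pi.single_eq_same]; exact h.β_pos)) (h.cpt_lam m 0)
      (Eventually.of_forall fun n => ?_)
    have a2 := h.zup _ (pow_mem (h.bZ i) n) u (h.U_le_Up _ hu)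
    have a3 : F.V m (F.b i ^ n * u * (F.b i ^ n)⁻¹) = F.V m 1 := ContinuousLinearMap.ext fun y => by
      rw [V_scalar h fun g => a1 (hS.conj_mem' _ (hS.conj_mem _ huS _) g), h.Δ_of_up a2, one_smul,
        V_one]
    show Real.log _ ≤ 0
    rw [a3]
    exact (h.lam_one m).le
  obtain ⟨y, hy, p, hp', e⟩ := Subgroup.mem_sup_of_normal_left.1
    (hp.bn ⊤ _ le_top le_sup_right (fun i _ => k1 i) (Subgroup.mem_top F.n₀))
  obtain ⟨z, hz, v, hv, rfl⟩ := h.P_univ.1 hp'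
  set c := F.cb Finset.univ
  have hcZ : c ∈ F.Z := h.cb_mem _
  have hd : F.n₀ * c⁻¹ * F.n₀⁻¹ ∈ F.Z := (h.n₀Z _).1 (inv_mem hcZ)
  have k2 : c * (F.n₀ * c⁻¹ * F.n₀⁻¹) ∈ S := by
    have a1 : z * (v * (c * v⁻¹ * c⁻¹)) * z⁻¹ ∈ F.Up :=
      h.zup z hz _ (mul_mem hv (h.zup c hcZ _ (inv_mem hv)))
    have a2 : c * (F.n₀ * c⁻¹ * F.n₀⁻¹) * (z * (v * (c * v⁻¹ * c⁻¹)) * z⁻¹) ∈ S := by
      have a3 : c * z = z * c := h.a_comm _ hz
      have a4 : z * (v * (c * v⁻¹ * c⁻¹)) * z⁻¹ = z * v * c * v⁻¹ * z⁻¹ * c⁻¹ := by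
        rw [mul_assoc _ z⁻¹, ← mul_inv_rev, a3]
        group
      have := mul_mem (hS.conj_mem y hy c) (hS.conj_mem _ (inv_mem hy) (c * (z * v) * c⁻¹ * (z * v)⁻¹))
      rw [a4, ← e]
      refine (congrArg (· ∈ S) ?_).mp this
      group
    have a5 := (tendsto_const_nhds (x := c * (F.n₀ * c⁻¹ * F.n₀⁻¹))).mul (h.U_univ.2 a1)
    rw [mul_one] at a5
    refine hc.mem_of_tendsto a5 (Eventually.of_forall fun n => ?_)
    have := hS.conj_mem' _ a2 (c ^ n)
    rwa [← mul_assoc, mul_assoc _ _ (c ^ n), ← inv_pow,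
      ((Commute.inv_left (a := c) (h.a_comm _ (mul_mem hcZ hd))).pow_left n).eq, inv_pow, mul_assoc,
      ← mul_assoc (c ^ n)⁻¹] at this
  have k3 : F.Up ≤ S := fun x hx => by
    have a1 := (tendsto_const_nhds (x := x)).mul (up_reg h (mul_mem hcZ hd) (fun i => by
      obtain ⟨i, rfl⟩ := F.ι.surjective i
      rw [h.ℓ_mul hcZ hd, Pi.add_apply, h.ℓ_n₀ hcZ]
      exact add_pos (h.ℓ_cb_pos (Finset.mem_univ _)) (h.ℓ_cb_pos (Finset.mem_univ _))) (inv_mem hx))
    rw [mul_one] at a1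
    refine hc.mem_of_tendsto a1 (Eventually.of_forall fun n => ?_)
    simpa [mul_assoc] using mul_mem (hS.conj_mem _ (inv_mem (pow_mem k2 n)) x) (pow_mem k2 n)
  refine Gp_le k3 fun x hx => ?_
  simpa [mul_assoc] using hS.conj_mem' _ (k3 ((h.n₀um x).1 hx)) F.n₀

/-- **Mautner**: a length function which vanishes on `U {j}` vanishes on `G⁺`. -/
theorem len_U (h : Fl F) (hp : Pan F s N τ w) {f : G → ℝ} (hf : Len f) {j : Fin r}
    (hU : ∀ u ∈ F.U {j}, f u = 0) : Gp F ≤ hf.ker := by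
  let S : Subgroup G := ⨅ l : F.L {j}, (len_conj hf (l : G)).ker
  have mS : ∀ g, g ∈ S ↔ ∀ l ∈ F.L {j}, f (l * g * l⁻¹) = 0 := fun g =>
    Subgroup.mem_iInf.trans ⟨fun H l hl => H ⟨l, hl⟩, fun H l => H l l.2⟩
  have a1 : F.U {j} ≤ S := fun u hu => (mS u).2 fun l hl => hU _ (h.U_conj hl hu)
  have a2 : F.L {j} ≤ Subgroup.normalizer S := Subgroup.le_normalizer_iff.2 fun l hl g hg =>
    (mS _).2 fun l' hl' => by
      simpa [mul_assoc] using (mS g).1 hg _ (mul_mem hl' hl)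
  have : S.Normal := normal_of hp (fun g hg => by
    obtain ⟨l, hl, u, hu, rfl⟩ := h.levi (P_anti (Finset.subset_univ {j}) hg)
    exact mul_mem (a2 hl) (Subgroup.le_normalizer (a1 hu))) fun i => by
      by_cases hi : i = j
      · subst hi
        exact Subgroup.le_normalizer ((mS _).2 fun l hl =>
          s_of_len h hp (len_conj hf l) fun u hu => hU _ (h.U_conj hl hu))
      · exact a2 (s_L hp hi)
  obtain ⟨u, hu, h1⟩ := exists_U h hp j
  have hc : IsClosed (S : Set G) := by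
    rw [Subgroup.coe_iInf]
    exact isClosed_iInter fun l => closed_ker _
  exact fun g hg => by simpa [hf.mem_ker] using (mS g).1 (normal_le h hp hc hu h1 (a1 hu) hg) 1 (one_mem _)

omit [ProperSpace k] in
/-- elements of the chamber which leave the wall `j` contract `U {j}` -/
theorem U_tendsto (h : Fl F) {ι : Type} {l : Filter ι} {t : ι → Fin r → ℤ} (h0 : ∀ n, 0 ≤ t n)
    {j : Fin r} (hj : Tendsto (fun n => t n j) l atTop) {u : G} (hu : u ∈ F.U {j}) :
    Tendsto (fun n => (F.a (t n))⁻¹ * u * F.a (t n)) l (𝓝 1) := by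
  have h1 := Tendsto.comp hu (tendsto_atTop.2 fun b : ℕ =>
    (hj.eventually_ge_atTop (b : ℤ)).mono fun n hn => (Int.le_toNat (h0 n j)).2 hn :
      Tendsto (fun n => (t n j).toNat) l atTop)
  refine (h.up_tendsto (z := fun n => F.a (t n - Pi.single j (t n j))) (Eventually.of_forall
    fun n => h.a_dom fun i => ?_) (Eventually.of_forall fun n => ?_) h1).congr fun n => ?_
  · by_cases hi : i = j
    · subst hi; simp
    · simpa [Pi.single_eq_of_ne hi] using h0 n i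
  · simpa using h.zup _ (inv_mem (pow_mem (h.cb_mem {j}) (t n j).toNat)) u (h.U_le_Up _ hu)
  · have e : F.a (t n) = F.cb {j} ^ (t n j).toNat * F.a (t n - Pi.single j (t n j)) := by
      rw [h.cb_single, ← zpow_natCast, Int.toNat_of_nonneg (h0 n j), ← h.a_single, ← h.a_add,
        add_sub_cancel]
    rw [e]
    simp only [Function.comp]
    group

/-- **Howe-Moore**, group form relative to `G⁺`. -/
theorem hm_Gp (h : Fl F) (hp : Pan F s N τ w) (U : Ultrafilter G) (hU : (U : Filter G) ≤ cocompact G)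
    {f : G → ℝ} (hf : Len f) (hc : ∀ g, Ctr U g → f g = 0) : Gp F ≤ hf.ker := by
  obtain ⟨C, hC, hk⟩ := h.kak
  choose x hx t ht y hy e using hk
  obtain ⟨x₀, -, h1⟩ := hC.ultrafilter_le_nhds (U.map x) (le_principal_iff.2
    (mem_map.2 (Eventually.of_forall hx)))
  obtain ⟨y₀, -, h2⟩ := hC.ultrafilter_le_nhds (U.map y) (le_principal_iff.2
    (mem_map.2 (Eventually.of_forall hy)))
  have h1 : Tendsto x U (𝓝 x₀) := h1
  have h2 : Tendsto y U (𝓝 y₀) := h2
  obtain ⟨j, hj⟩ : ∃ j, Tendsto (fun g => t g j) U atTop := by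
    by_contra hn
    simp only [not_exists, tendsto_atTop, not_forall] at hn
    choose B hB using hn
    have hK := (hC.mul ((Set.finite_Icc 0 B).image F.a).isCompact).mul hC
    refine (Ultrafilter.compl_mem_iff_notMem.1 (hU hK.compl_mem_cocompact)) ?_
    filter_upwards [eventually_all.2 fun j => Ultrafilter.eventually_not.2 (hB j)] with g hg
    rw [e g]
    exact Set.mul_mem_mul (Set.mul_mem_mul (hx g)
      ⟨_, ⟨ht g, fun j => (not_le.1 (hg j)).le⟩, rfl⟩) (hy g)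
  have h3 := len_U h hp (len_conj hf x₀) (j := j) fun u hu => hc _ ⟨fun g => x g * u * (x g)⁻¹,
    (h1.mul tendsto_const_nhds).mul h1.inv, by
      have := (h2.inv.mul (U_tendsto h ht hj hu)).mul h2
      rw [mul_one, inv_mul_cancel] at this
      refine this.congr fun g => ?_
      conv_rhs => rw [show g⁻¹ = (x g * F.a (t g) * y g)⁻¹ by rw [← e g]]
      rw [show ∀ a : G, a * g = a * (x g * F.a (t g) * y g) from fun a => by rw [← e g]]
      group⟩
  intro g hg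
  simpa [mul_assoc, hf.mem_ker] using
    (show f (x₀ * _ * x₀⁻¹) = 0 from h3 ((Gp_normal h hp).conj_mem' g hg x₀))

/-- **Howe-Moore** for groups in which `G⁺` is dense. -/
theorem hmg (h : Fl F) (hp : Pan F s N τ w) (hd : Dense (Gp F : Set G)) : HMG G :=
  fun U hU _ hf hc g => closure_minimal (hm_Gp h hp U hU hf hc) (closed_ker hf) (hd g)

/-- **Moore**, for length functions. -/
theorem moore_len (h : Fl F) (hp : Pan F s N τ w) {f : G → ℝ} (hf : Len f) {ι : Type}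
    {l : Filter ι} [l.NeBot] {b : ι → G} (hb : Tendsto b l (cocompact G)) (h0 : ∀ n, f (b n) = 0) :
    Gp F ≤ hf.ker := by
  refine hm_Gp h hp ((Ultrafilter.of l).map b) (hb.mono_left (Ultrafilter.of_le l)) hf ?_
  rintro g ⟨γ, h1, h2⟩
  refine len_lim hf h1 ((hf.cont.comp h2).congr' (mem_map.2 (Eventually.of_forall fun n => ?_)))
  simpa using hf.conj (inv_mem (show b n ∈ hf.ker from h0 n)) (γ (b n))

omit [ProperSpace k] in
theorem z_cocompact (h : Fl F) {ι : Type} {l : Filter ι} {z : ι → G} (hz : ∀ n, z n ∈ F.Z)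
    (hl : Tendsto (fun n => ‖F.ℓ (z n)‖) l atTop) : Tendsto z l (cocompact G) := by
  refine hasBasis_cocompact.tendsto_right_iff.2 fun K hK => ?_
  obtain ⟨B, -, hB⟩ := h.ℓ_bdd (hK.inter_right h.clZ) fun x hx => h.z_mem hx.2
  filter_upwards [hl.eventually_gt_atTop B] with n hn hK using hn.not_ge (hB _ ⟨hK, hz n⟩)

omit [ProperSpace k] in
theorem pow_cocompact (h : Fl F) {z : G} (hz : z ∈ F.Z) (hl : F.ℓ z ≠ 0) :
    Tendsto (fun n : ℕ => z ^ n) atTop (cocompact G) := by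
  refine z_cocompact h (pow_mem hz) ?_
  simp only [h.ℓ_pow hz, norm_smul, Real.norm_natCast]
  exact tendsto_natCast_atTop_atTop.atTop_mul_const (norm_pos_iff.2 hl)

omit [ProperSpace k] [IsTopologicalGroup G] [T2Space G] in
theorem ℓ_b_ne (h : Fl F) (j : Fin r) : F.ℓ (F.b j) ≠ 0 := fun e => by
  have := congrFun e j
  rw [h.bℓ, Pi.single_eq_same] at this
  exact h.β_pos.ne' this

theorem moore_z (h : Fl F) (hp : Pan F s N τ w) {f : G → ℝ} (hf : Len f) {z : G} (hz : z ∈ F.Z)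
    (hl : F.ℓ z ≠ 0) (h0 : f z = 0) : Gp F ≤ hf.ker :=
  moore_len h hp hf (pow_cocompact h hz hl) (pow_mem (show z ∈ hf.ker from h0))

theorem len_Ut (h : Fl F) (hp : Pan F s N τ w) {f : G → ℝ} (hf : Len f) {θ : Finset (Fin r)}
    (hθ : θ.Nonempty) (hU : ∀ u ∈ F.U θ, f u = 0) : Gp F ≤ hf.ker :=
  let ⟨_, hj⟩ := hθ
  len_U h hp hf fun u hu => hU u (h.U_mono (Finset.singleton_subset_iff.2 hj) hu)

omit [ProperSpace k] in
theorem exists_U' (h : Fl F) (hp : Pan F s N τ w) (j : Fin r) : ∃ u ∈ F.U' {j}, u ≠ 1 := by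
  obtain ⟨u, h1, -, -, -, -, h2, -, -, h3, -⟩ := hp.gen j
  exact ⟨_, um_L₁ h ((hp.sU j u h2).1 h1) (mul_mem (mul_mem (s_L₁ hp j) h2) (inv_mem (s_L₁ hp j))),
    fun e => h3 (conj_eq_one_iff.1 e)⟩

omit [ProperSpace k] in
theorem U'_cocompact (h : Fl F) {j : Fin r} {u : G} (hu : u ∈ F.U' {j}) (h1 : u ≠ 1) :
    Tendsto (fun n : ℕ => (F.b j ^ n)⁻¹ * u * F.b j ^ n) atTop (cocompact G) := by
  refine hasBasis_cocompact.tendsto_right_iff.2 fun K hK => ?_
  by_contra hn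
  have := frequently_iff_neBot.1 (not_eventually.1 hn)
  refine h1 (h.U'_inf_P hu (h.P_iff.2 fun i hi => ?_))
  obtain rfl := Finset.mem_singleton.1 hi
  exact @Fl.fix_of_bdd _ _ _ _ _ _ _ _ h _ _ this _ (Eventually.of_forall (h.dom_pow (h.b_dom i))) _
    ((h.tendsto_pow (h.bZ i) (by rw [h.bℓ, Pi.single_eq_same]; exact h.β_pos)).mono_left
      inf_le_left) _ hK _ (mem_inf_of_right fun n hn => not_not.1 hn)

omit [ProperSpace k] in
theorem U_cocompact (h : Fl F) {j : Fin r} {u : G} (hu : u ∈ F.U {j}) (h1 : u ≠ 1) :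
    Tendsto (fun n : ℕ => F.b j ^ n * u * (F.b j ^ n)⁻¹) atTop (cocompact G) := by
  refine hasBasis_cocompact.tendsto_right_iff.2 fun K hK => ?_
  by_contra hn
  have := frequently_iff_neBot.1 (not_eventually.1 hn)
  refine h1 (h.U_inf_Pm hu (h.Pm_iff.2 fun i hi => ?_))
  obtain rfl := Finset.mem_singleton.1 hi
  exact @Fl.fix_of_bdd' _ _ _ _ _ _ _ _ h _ _ this _ (Eventually.of_forall (h.dom_pow (h.b_dom i))) _
    ((h.tendsto_pow (h.bZ i) (by rw [h.bℓ, Pi.single_eq_same]; exact h.β_pos)).mono_left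
      inf_le_left) _ hK _ (mem_inf_of_right fun n hn => not_not.1 hn)

theorem len_Ut' (h : Fl F) (hp : Pan F s N τ w) {f : G → ℝ} (hf : Len f) {θ : Finset (Fin r)}
    (hθ : θ.Nonempty) (hU : ∀ u ∈ F.U' θ, f u = 0) : Gp F ≤ hf.ker := by
  obtain ⟨j, hj⟩ := hθ
  obtain ⟨u, hu, h1⟩ := exists_U' h hp j
  refine moore_len h hp hf (U'_cocompact h hu h1) fun n => hU _ ?_
  simpa using h.U'_conj (h.z_mem_L (inv_mem (pow_mem (h.bZ j) n)) θ)
    (h.U'_mono (Finset.singleton_subset_iff.2 hj) hu)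

section rep

variable {𝓗 : Type} [NormedAddCommGroup 𝓗] [InnerProductSpace ℂ 𝓗] {σ : G →* (𝓗 →L[ℂ] 𝓗)} {v : 𝓗}

omit [ProperSpace k] [IsTopologicalGroup G] [T2Space G] in
theorem fix_of_ker (hσ : URep σ) (H : Gp F ≤ (hσ.len v).ker) {g : G} (hg : g ∈ Gp F) : σ g v = v :=
  sub_eq_zero.1 (norm_eq_zero.1 (H hg))

/-- **Moore**: a vector fixed by elements which tend to infinity is fixed by `G⁺`. -/
theorem moore (h : Fl F) (hp : Pan F s N τ w) (hσ : URep σ) {ι : Type} {l : Filter ι} [l.NeBot]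
    {b : ι → G} (hb : Tendsto b l (cocompact G)) (h0 : ∀ n, σ (b n) v = v) {g : G} (hg : g ∈ Gp F) :
    σ g v = v :=
  fix_of_ker hσ (moore_len h hp _ hb fun n => by rw [h0, sub_self, norm_zero]) hg

theorem moore_Z (h : Fl F) (hp : Pan F s N τ w) (hσ : URep σ) {z : G} (hz : z ∈ F.Z)
    (hl : F.ℓ z ≠ 0) (h0 : σ z v = v) {g : G} (hg : g ∈ Gp F) : σ g v = v :=
  fix_of_ker hσ (moore_z h hp _ hz hl (by rw [h0, sub_self, norm_zero])) hg

theorem moore_b (h : Fl F) (hp : Pan F s N τ w) (hσ : URep σ) {j : Fin r} (h0 : σ (F.b j) v = v)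
    {g : G} (hg : g ∈ Gp F) : σ g v = v :=
  moore_Z h hp hσ (h.bZ j) (ℓ_b_ne h j) h0 hg

theorem moore_U (h : Fl F) (hp : Pan F s N τ w) (hσ : URep σ) {θ : Finset (Fin r)}
    (hθ : θ.Nonempty) (h0 : ∀ u ∈ F.U θ, σ u v = v) {g : G} (hg : g ∈ Gp F) : σ g v = v :=
  fix_of_ker hσ (len_Ut h hp _ hθ fun u hu => by rw [h0 u hu, sub_self, norm_zero]) hg

theorem moore_U' (h : Fl F) (hp : Pan F s N τ w) (hσ : URep σ) {θ : Finset (Fin r)}
    (hθ : θ.Nonempty) (h0 : ∀ u ∈ F.U' θ, σ u v = v) {g : G} (hg : g ∈ Gp F) : σ g v = v :=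
  fix_of_ker hσ (len_Ut' h hp _ hθ fun u hu => by rw [h0 u hu, sub_self, norm_zero]) hg

end rep

omit [T2Space G] [ProperSpace k] in
theorem cpt_cell (h : Fl F) {K : Set G} (hK : IsCompact K) (hK1 : K ∈ 𝓝 (1 : G)) :
    ∃ V ∈ 𝓝 (1 : G), IsCompact V ∧ V ⊆ F.Ω ∧ V ⊆ K := by
  refine ⟨_, inter_mem hK1 (eventually_all.2 fun j => ?_), h.cpt_Ω hK (1 / 2),
    h.sub_Ω one_half_pos, fun _ hx => hx.1⟩
  exact ((h.contΔ j).norm.tendsto 1).eventually_const_le (by rw [h.Δ_one, norm_one]; norm_num)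

theorem len_nhds (h : Fl F) : {g | F.len g ≤ 1} ∈ 𝓝 (1 : G) :=
  (h.cont_len.tendsto 1).eventually_le_const (by rw [h.len_one]; exact one_pos)

/-- the input `Geo` of the decay estimates -/
theorem geo (h : Fl F) : Vale.Agent.P092LG.Geo G := by
  obtain ⟨C, hC, hk⟩ := h.kak
  obtain ⟨V, hV, hVc, hΩ, -⟩ := cpt_cell h (h.cpt_len 1) (len_nhds h)
  obtain ⟨L, hL, -, h1⟩ := h.um_bdd (hVc.image_of_continuousOn (h.lo_cont.mono hΩ))
  obtain ⟨L', hL', -, h2⟩ := h.up_bdd (hVc.image_of_continuousOn (h.up_cont.mono hΩ))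
  have hd : ∀ x : Fin r → ℕ, F.Dom (F.a fun i => x i) := fun x =>
    h.a_dom fun i => Int.natCast_nonneg _
  refine Vale.Agent.P092LG.geo_of_chamber (fun x => F.a fun i => x i) h.a_zero
    (fun x y => by rw [← h.a_add]; congr 1) (fun j => ?_) hC (fun g => ?_) hV
    ((hL.mul (hVc.image_of_continuousOn (h.md_cont.mono hΩ))).union hL') fun x y v hv => ?_
  · refine (pow_cocompact h (h.bZ j) (ℓ_b_ne h j)).congr fun n => ?_
    rw [← zpow_natCast, ← h.a_single]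
    congr 1
    funext i
    by_cases hi : i = j
    · subst hi; simp
    · simp [Pi.single_eq_of_ne hi]
  · obtain ⟨x, hx, t, ht, y, hy, e⟩ := hk g
    refine ⟨x, hx, y, hy, fun i => (t i).toNat, ?_⟩
    simpa only [Int.toNat_of_nonneg (ht _)] using e
  · refine ⟨_, Or.inl (Set.mul_mem_mul (h1 _ (hd x) _ ⟨v, hv, rfl⟩ (h.lo_mem v (hΩ hv)))
      ⟨v, hv, rfl⟩), _, Or.inr (h2 _ (hd y) _ ⟨v, hv, rfl⟩ (h.up_mem v (hΩ hv))), ?_⟩
    have e : (F.a fun i => ((x + y) i : ℕ)) = (F.a fun i => x i) * F.a fun i => y i := by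
      rw [← h.a_add]; congr 1
    have e2 := h.a_comm (fun i => x i) (h.md_mem (hΩ hv))
    beta_reduce
    rw [e, mul_assoc _ (F.md v), ← mul_assoc (F.md v), ← e2]
    conv_lhs => rw [← F.lo_md_up v]
    group

end Vale.Agent.P092GH
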